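import Vale.Agent.P253H.HorP
import Vale.Agent.P253H.JDP
import Vale.Agent.P253.Core

/-!
Semidefinite version of `core_step` and `core` (file P253/Core): copy and adapt. With the weight
`exp (φ z) • K z`, `Dom (exp φ • K) u a` gives `Dom K u (exp φ * a)` and
`exp (φ z) * ‖z‖ ^ (-δ) ≤ exp 1`, `exp (φ z) ≤ exp 1`. The function `m` is `C * B.indicator lam`.
`w = χ • v - (χ • v - w)` (`dom_add`, `dom_smul`), and `Dom (K z) (w z) a` with `t = Pi.single i 1` gives
`‖w z i‖ ^ 2 ≤ a * c` almost everywhere, which is enough for `remov` (`lintegral_mono_ae`).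
-/

namespace Vale.Agent.P253

open Complex Matrix Metric Set Filter Topology MeasureTheory
open scoped ContDiff ComplexConjugate ComplexOrder ENNReal Manifold

variable {n m N : ℕ}

lemma hcorep_hf (K : M n) (c : ℝ) (t : Fin n → ℂ) :
    (hf ((c : ℂ) • K) t t).re = c * (hf K t t).re := by
  simp only [hf, Matrix.smul_mulVec, dotProduct_smul, smul_eq_mul, re_ofReal_mul]

lemma hcorep_nn {K : M n} (h : K.PosSemidef) (t : Fin n → ℂ) : 0 ≤ (hf K t t).re :=
  (h.dotProduct_mulVec_nonneg t).1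

lemma hcorep_wt {K : M n} {u : Fin n → ℂ} {a x : ℝ} (h : Dom ((Real.exp x : ℂ) • K) u a) :
    Dom K u (Real.exp x * a) :=
  ⟨mul_nonneg (Real.exp_pos x).le h.1, fun t => (h.2 t).trans (le_of_eq (by
    rw [hcorep_hf]; ring))⟩

lemma hcorep_coord {K : M n} {u : Fin n → ℂ} {a c : ℝ} (h : Dom K u a) {i : Fin n}
    (hc : (K i i).re ≤ c) : ‖u i‖ ^ 2 ≤ a * c := by
  have h1 := h.2 (Pi.single i 1)
  have e : hf K (Pi.single i 1) (Pi.single i 1) = K i i := by
    simp [hf, dotProduct, mulVec, Pi.single_apply]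
  rw [e, dotProduct_single, mul_one] at h1
  exact h1.trans (mul_le_mul_of_nonneg_left hc h.1)

/-- The approximation step. -/
theorem hcorep_step {K : ℂ → M n} (h : SmP (pd 1) K) (hn : Neg (pd 1) K fun _ => 0) {c : ℝ}
    (c0 : 0 ≤ c) (hl : ∀ z ∈ pd 1, ∀ i, (K z i i).re ≤ c) {v : ℂ → Fin n → ℂ}
    (hv : DifferentiableOn ℂ v (pd 1)) {lam : ℂ → ℝ} (hd : ∀ z ∈ pd 1, Dom (K z) (v z) (lam z))
    (hi : IntegrableOn lam (pd 1)) :
    ∃ C : ℝ, 0 ≤ C ∧ ∀ δ : ℝ, 0 < δ → ∃ w : ℂ → Fin n → ℂ, DifferentiableOn ℂ w (pd 1) ∧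
      JD K (v - w) ∧ ∀ i, ∫⁻ z in pd 1, ENNReal.ofReal (‖w z i‖ ^ 2) ≤ ENNReal.ofReal
        (C * ∫ z in pd 1 ∩ closedBall 0 (Real.exp (-1 / δ)), lam z) := by
  obtain ⟨C, C0, hC⟩ := cut
  refine ⟨2 * c + 2 * c * Real.exp 1 * C, by positivity, fun δ hδ => ?_⟩
  obtain ⟨φ, χ, hφ, hχ, hz⟩ := hC δ hδ
  have hU := pd_open 1
  obtain ⟨k1, k2⟩ := neg_wtP hU h hn hφ
  have N0 : ∀ z ∈ pd 1, 0 ≤ lam z := fun z hz => (hd z hz).1
  obtain ⟨B, hB⟩ : ∃ B, B = closedBall (0 : ℂ) (Real.exp (-1 / δ)) := ⟨_, rfl⟩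
  have mB : MeasurableSet B := hB ▸ measurableSet_closedBall
  have hB' : ∀ z, z ∈ B ↔ ‖z‖ ≤ Real.exp (-1 / δ) := fun z => by simp [hB]
  rw [← hB]
  obtain ⟨A, hA⟩ : ∃ A, A = ∫ z in pd 1 ∩ B, lam z := ⟨_, rfl⟩
  have A0 : 0 ≤ A := hA ▸ setIntegral_nonneg (hU.measurableSet.inter mB) fun z hz => N0 z hz.1
  have iB : IntegrableOn (B.indicator lam) (pd 1) := hi.indicator mB
  have eB : ∫ z in pd 1, B.indicator lam z = A := by rw [setIntegral_indicator mB, hA]
  have nB : ∀ z ∈ pd 1, 0 ≤ B.indicator lam z := fun z hz =>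
    indicator_apply_nonneg fun _ => N0 z hz
  obtain ⟨w, a, w1, am, ad, w2⟩ := hormanderP hU k1 k2 (continuous_re.comp_continuousOn
    (d1_smooth hU (d2_smooth hU (ofRealCLM.contDiff.comp_contDiffOn hφ))).continuousOn)
    (fun z k => (hz z k).1) hχ hv (m := fun z => C * B.indicator lam z)
    (fun z k => mul_nonneg C0 (nB z k)) (iB.const_mul C) fun z k t => by
      have H0 := hcorep_nn (h.pos z k) t
      have e : normSq (d2 (fun w => (χ w : ℂ)) z) * (lam z * (hf (K z) t t).re) =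
          normSq (d2 (fun w => (χ w : ℂ)) z) * Real.exp (-φ z) *
            (lam z * (Real.exp (φ z) * (hf (K z) t t).re)) := by
        rw [Real.exp_neg]
        field_simp
      rw [hcorep_hf]
      refine (mul_le_mul_of_nonneg_left ((hd z k).2 t) (normSq_nonneg _)).trans ?_
      rw [e]
      refine (mul_le_mul_of_nonneg_right (hz z k).2.2.2.2.2.2
        (mul_nonneg (N0 z k) (mul_nonneg (Real.exp_pos _).le H0))).trans (le_of_eq ?_)
      by_cases b : z ∈ B
      · rw [if_pos ((hB' z).1 b), indicator_of_mem b]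
        ring
      · rw [if_neg fun c => b ((hB' z).2 c), indicator_of_notMem b]
        ring
  rw [integral_const_mul, eB] at w2
  have ad' : ∀ᵐ z ∂volume.restrict (pd 1), z ∈ pd 1 ∧ 0 ≤ a z ∧
      Dom (K z) ((χ z : ℂ) • v z - w z) (Real.exp (φ z) * a z) := by
    filter_upwards [ad, ae_restrict_mem hU.measurableSet] with z k1 k2
    exact ⟨k2, k1.1, hcorep_wt k1⟩
  have w3 : ∫⁻ z in pd 1, ENNReal.ofReal (Real.exp (φ z) * a z * ‖z‖ ^ (-δ)) ≤
      ENNReal.ofReal (Real.exp 1) * ENNReal.ofReal (C * A) := by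
    refine le_trans ?_ (mul_le_mul_right w2 _)
    rw [← lintegral_const_mul' _ _ ENNReal.ofReal_ne_top]
    refine lintegral_mono_ae (ad'.mono fun z ⟨k, a0, _⟩ => ?_)
    rw [← ENNReal.ofReal_mul (Real.exp_pos 1).le, mul_right_comm]
    refine ENNReal.ofReal_le_ofReal (mul_le_mul_of_nonneg_right ?_ a0)
    rw [Real.rpow_def_of_pos (norm_pos_iff.2 (mem_pd.1 k).2), ← Real.exp_add]
    exact Real.exp_le_exp.2 (by linarith [(hz z k).2.1])
  have r1 : Real.exp (-2 / δ) ≤ 1 := Real.exp_le_one_iff.2 (by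
    rw [neg_div]; exact neg_nonpos.2 (by positivity))
  have sb : pd (Real.exp (-2 / δ)) ⊆ pd 1 := fun z k =>
    mem_pd.2 ⟨(mem_pd.1 k).1.trans_le r1, (mem_pd.1 k).2⟩
  have mφ : AEMeasurable (fun z => Real.exp (φ z)) (volume.restrict (pd 1)) :=
    (Real.continuous_exp.comp_continuousOn hφ.continuousOn).aemeasurable hU.measurableSet
  refine ⟨w, w1, ⟨δ, _, hδ, Real.exp_pos _, r1, fun z => Real.exp (φ z) * a z,
    (mφ.mul am).mono_set sb, ?_, ?_⟩, fun i => ?_⟩
  · filter_upwards [ae_restrict_of_ae_restrict_of_subset sb ad',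
      ae_restrict_mem (pd_open _).measurableSet] with z k1 k2
    have k3 := k1.2.2
    rw [(hz z (sb k2)).2.2.2.2.1 (mem_pd.1 k2).1, ofReal_one, one_smul] at k3
    exact k3
  · exact lt_of_le_of_lt ((lintegral_mono_set sb).trans w3)
      (ENNReal.mul_lt_top ENNReal.ofReal_lt_top ENNReal.ofReal_lt_top)
  have w4 : ∀ᵐ z ∂volume.restrict (pd 1), ENNReal.ofReal (‖w z i‖ ^ 2) ≤
      ENNReal.ofReal (2 * c * B.indicator lam z) +
        ENNReal.ofReal (2 * c * Real.exp 1) * ENNReal.ofReal (a z) := by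
    refine ad'.mono fun z ⟨k, a0, k3⟩ => ?_
    obtain ⟨-, p1, x0, x1, -, x2, -⟩ := hz z k
    have h1 := hcorep_coord k3 (hl z k i)
    have h2 := hcorep_coord (hd z k) (hl z k i)
    have h3 : ‖((χ z : ℂ) • v z) i‖ ^ 2 ≤ c * B.indicator lam z := by
      rw [Pi.smul_apply, norm_smul, norm_real, Real.norm_of_nonneg x0, mul_pow]
      by_cases b : z ∈ B
      · rw [indicator_of_mem b, mul_comm c]
        exact (mul_le_of_le_one_left (by positivity) (pow_le_one₀ x0 x1)).trans h2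
      · rw [indicator_of_notMem b, x2 (not_le.1 fun c => b ((hB' z).2 c))]
        simp
    have h4 : Real.exp (φ z) ≤ Real.exp 1 := Real.exp_le_exp.2 (by
      have := mul_nonneg hδ.le (neg_nonneg.2 (Real.log_nonpos (norm_nonneg z) (mem_pd.1 k).1.le))
      linarith)
    have h5 : Real.exp (φ z) * a z * c ≤ Real.exp 1 * a z * c := by gcongr
    have h6 : ‖w z i‖ ≤ ‖((χ z : ℂ) • v z) i‖ + ‖((χ z : ℂ) • v z - w z) i‖ := by
      refine le_trans (le_of_eq ?_) (norm_sub_le _ _)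
      rw [Pi.sub_apply, sub_sub_cancel]
    have h7 := pow_le_pow_left₀ (norm_nonneg _) h6 2
    rw [← ENNReal.ofReal_mul (by positivity), ← ENNReal.ofReal_add
      (mul_nonneg (by positivity) (nB z k)) (by positivity)]
    refine ENNReal.ofReal_le_ofReal ?_
    nlinarith [sq_nonneg (‖((χ z : ℂ) • v z) i‖ - ‖((χ z : ℂ) • v z - w z) i‖)]
  refine (lintegral_mono_ae w4).trans ?_
  rw [lintegral_add_left' (iB.const_mul (2 * c)).aemeasurable.ennreal_ofReal,
    lintegral_const_mul' _ _ ENNReal.ofReal_ne_top, ← ofReal_integral_eq_lintegral_ofReal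
      (iB.const_mul (2 * c)) ((ae_restrict_iff' hU.measurableSet).2
        (Eventually.of_forall fun z k => mul_nonneg (by positivity) (nB z k))),
    integral_const_mul, eB, ← hA]
  refine (add_le_add_right (mul_le_mul_right w2 _) _).trans ?_
  rw [← ENNReal.ofReal_mul (by positivity),
    ← ENNReal.ofReal_add (by positivity) (by positivity)]
  exact ENNReal.ofReal_le_ofReal (le_of_eq (by ring))

theorem coreP {K : ℂ → M n} (h : SmP (pd 1) K) (hn : Neg (pd 1) K fun _ => 0) {c : ℝ} (c0 : 0 ≤ c)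
    (hl : ∀ z ∈ pd 1, ∀ i, (K z i i).re ≤ c) {v : ℂ → Fin n → ℂ}
    (hv : DifferentiableOn ℂ v (ball 0 1)) {lam : ℂ → ℝ} (hc : ContinuousOn lam (pd 1))
    (hd : ∀ z ∈ pd 1, Dom (K z) (v z) (lam z))
    (hi : ∫⁻ z in pd 1, ENNReal.ofReal (lam z) < ⊤) : JD K v := by
  classical
  have hU := pd_open 1
  have N0 : ∀ z ∈ pd 1, 0 ≤ lam z := fun z hz => (hd z hz).1
  have hi' : IntegrableOn lam (pd 1) :=
    ⟨hc.aestronglyMeasurable hU.measurableSet,
      (hasFiniteIntegral_iff_ofReal ((ae_restrict_iff' hU.measurableSet).2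
        (Eventually.of_forall N0))).2 hi⟩
  obtain ⟨C, C0, hC⟩ := hcorep_step h hn c0 hl (hv.mono sdiff_subset) hd hi'
  obtain ⟨D, D0, hD⟩ := remov
  obtain ⟨j0, j1, j2, j3, jp⟩ := jd_props h
  have lim : Tendsto (fun k : ℕ => ∫ z in pd 1 ∩ closedBall 0 (Real.exp (-1 / (1 / (k + 1 : ℝ)))),
      lam z) atTop (𝓝 0) := by
    have h1 := tendsto_setIntegral_of_antitone (μ := volume) (f := lam)
      (s := fun k : ℕ => pd 1 ∩ closedBall 0 (Real.exp (-1 / (1 / (k + 1 : ℝ)))))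
      (fun k => hU.measurableSet.inter measurableSet_closedBall)
      (fun k l hkl => inter_subset_inter_right _ (closedBall_subset_closedBall (Real.exp_le_exp.2
        (by
          have : (k : ℝ) ≤ l := Nat.cast_le.2 hkl
          rw [div_div_eq_mul_div, div_div_eq_mul_div]
          linarith)))) ⟨0, hi'.mono_set inter_subset_left⟩
    have h2 : ⋂ k : ℕ, pd 1 ∩ closedBall 0 (Real.exp (-1 / (1 / (k + 1 : ℝ)))) = ∅ := by
      refine eq_empty_of_forall_notMem fun z hz => ?_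
      rw [mem_iInter] at hz
      obtain ⟨k, hk⟩ := exists_nat_gt (-Real.log ‖z‖)
      have h3 := mem_closedBall_zero_iff.1 (hz k).2
      rw [← Real.log_le_iff_le_exp (norm_pos_iff.2 (mem_pd.1 (hz k).1).2), div_div_eq_mul_div,
        div_one] at h3
      linarith
    rwa [h2, setIntegral_empty] at h1
  refine mod_closed j0 j1 j2 j3 (hv.analyticAt (ball_mem_nhds 0 one_pos)) (ρ := 1 / 2)
    (by norm_num) fun ε hε => ?_
  have h4 := (lim.const_mul (D * C)).eventually (gt_mem_nhds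
    (show D * C * 0 < ε ^ 2 by rw [mul_zero]; positivity))
  obtain ⟨k, hk⟩ := h4.exists
  obtain ⟨w, w1, w2, w3⟩ := hC (1 / (k + 1 : ℝ)) (by positivity)
  have a0 : 0 ≤ ∫ z in pd 1 ∩ closedBall 0 (Real.exp (-1 / (1 / (k + 1 : ℝ)))), lam z :=
    setIntegral_nonneg (hU.measurableSet.inter measurableSet_closedBall) fun z hz => N0 z hz.1
  generalize ∫ z in pd 1 ∩ closedBall 0 (Real.exp (-1 / (1 / (k + 1 : ℝ)))), lam z = a
    at hk w3 a0
  have h5 := fun i => hD (fun z => w z i) (differentiableOn_pi.1 w1 i) (C * a)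
    (by positivity) (w3 i)
  choose W W1 W2 W3 using h5
  refine ⟨fun z i => W i z, differentiableOn_pi.2 fun i => (W1 i).mono
    (ball_subset_ball (by norm_num)), fun z hz => (pi_norm_le_iff_of_nonneg hε.le).2 fun i =>
      (pow_le_pow_iff_left₀ (norm_nonneg _) hε.le two_ne_zero).1 ((W3 i z hz).trans
        (by linarith)), jp _ _ (fun z k => ?_) w2⟩
  funext i
  simp only [Pi.sub_apply, W2 i z k]

end Vale.Agent.P253
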