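import Vale.Agent.P253H.WtP
import Vale.Agent.P253H.RzP
import Vale.Agent.P253.Hor

/-!
Semidefinite version of `hormander` (file P253/Hor): copy the proof, with `aprioriP`, `rieszP`; the
hypothesis `hm` replaces `dual_cs`.
-/

namespace Vale.Agent.P253

open Complex Matrix Metric Set Filter Topology MeasureTheory
open scoped ContDiff ComplexConjugate ComplexOrder ENNReal Manifold

variable {n m N : ℕ}

theorem hhorp_bound {U : Set ℂ} (hU : IsOpen U) {K : ℂ → M n} (h : SmP U K) {l : ℂ → ℝ}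
    (hn : Neg U K l) (hl : ContinuousOn l U) (l0 : ∀ z ∈ U, 0 ≤ l z) {c : ℂ → ℂ}
    {v : ℂ → Fin n → ℂ} {m : ℂ → ℝ} (m0 : ∀ z ∈ U, 0 ≤ m z) (mi : IntegrableOn m U)
    (hm : ∀ z ∈ U, ∀ t, normSq (c z) * ‖v z ⬝ᵥ t‖ ^ 2 ≤ l z * m z * (hf (K z) t t).re)
    {t : ℂ → Fin n → ℂ}
    (ht : Tst U t) : ‖∫ z in U, (c z • v z) ⬝ᵥ t z‖ ^ 2 ≤
      (∫ z in U, m z) * ∫ z in U, (hf (K z) (vd2 t z) (vd2 t z)).re := by
  have p0 : ∀ z ∈ U, 0 ≤ (hf (K z) (t z) (t z)).re := fun z hz =>
    ((h.pos z hz).dotProduct_mulVec_nonneg (t z)).1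
  have ct : ∀ i, Continuous fun z => t z i := fun i => (ht.smooth i).continuous
  have cK : ∀ i j, ContinuousOn (fun z => K z i j) U := fun i j => (h.smooth i j).continuousOn
  have c1 : ContinuousOn (fun z => hf (K z) (t z) (t z)) U := by
    simp only [hf, dotProduct, mulVec, Pi.star_apply]
    refine continuousOn_finsetSum _ fun i _ => (ct i).star.continuousOn.mul ?_
    exact continuousOn_finsetSum _ fun j _ => (cK i j).mul (ct j).continuousOn
  have i1 : IntegrableOn (fun z => l z * (hf (K z) (t z) (t z)).re) U := by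
    refine hor_int (hl.mul (continuous_re.comp_continuousOn c1)) ht.cpt ht.sub fun z hz => ?_
    rw [image_eq_zero_of_notMem_tsupport hz]
    simp [hf]
  refine (hor_cs mi i1 ?_).trans (mul_le_mul_of_nonneg_left (aprioriP hU h hn hl ht)
    (setIntegral_nonneg hU.measurableSet m0))
  filter_upwards [ae_restrict_mem hU.measurableSet] with z hz
  refine ⟨m0 z hz, mul_nonneg (l0 z hz) (p0 z hz), ?_⟩
  rw [smul_dotProduct, smul_eq_mul, norm_mul, mul_pow, ← normSq_eq_norm_sq]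
  have h2 := hm z hz (t z)
  linarith

theorem hormanderP {U : Set ℂ} (hU : IsOpen U) {K : ℂ → M n} (h : SmP U K) {l : ℂ → ℝ}
    (hn : Neg U K l) (hl : ContinuousOn l U) (l0 : ∀ z ∈ U, 0 ≤ l z) {χ : ℂ → ℝ}
    (hχ : ContDiffOn ℝ ∞ χ U) {v : ℂ → Fin n → ℂ} (hv : DifferentiableOn ℂ v U) {m : ℂ → ℝ}
    (m0 : ∀ z ∈ U, 0 ≤ m z) (mi : IntegrableOn m U)
    (hm : ∀ z ∈ U, ∀ t, normSq (d2 (fun w => (χ w : ℂ)) z) * ‖v z ⬝ᵥ t‖ ^ 2 ≤
      l z * m z * (hf (K z) t t).re) :
    ∃ (w : ℂ → Fin n → ℂ) (a : ℂ → ℝ), DifferentiableOn ℂ w U ∧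
      AEMeasurable a (volume.restrict U) ∧
      (∀ᵐ z ∂volume.restrict U, Dom (K z) ((χ z : ℂ) • v z - w z) (a z)) ∧
      ∫⁻ z in U, ENNReal.ofReal (a z) ≤ ENNReal.ofReal (∫ z in U, m z) := by
  have sχ : ContDiffOn ℝ ∞ (fun w => (χ w : ℂ)) U := ofRealCLM.contDiff.comp_contDiffOn hχ
  have cf : ContinuousOn (fun z => d2 (fun w => (χ w : ℂ)) z • v z) U :=
    (d2_smooth hU sχ).continuousOn.smul hv.continuousOn
  obtain ⟨u, a, u1, a1, a2, u2, u3⟩ := rieszP hU h cf (setIntegral_nonneg hU.measurableSet m0)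
    fun t ht => hhorp_bound hU h hn hl l0 m0 mi hm ht
  have hvi : ∀ i, DifferentiableOn ℂ (fun z => v z i) U := differentiableOn_pi.1 hv
  have key : ∀ i, ∃ k : ℂ → ℂ, DifferentiableOn ℂ k U ∧
      ∀ᵐ z : ℂ, z ∈ U → (χ z : ℂ) * v z i - u z i = k z := by
    intro i
    refine P128.wey hU (((sχ.continuousOn.mul (hvi i).continuousOn).locallyIntegrableOn
      hU.measurableSet).sub (u1 i)) fun φ hφ hc hs => ?_
    have sφ : ContDiff ℝ ∞ fun w => (φ w : ℂ) := ofRealCLM.contDiff.comp hφ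
    have sub1 : tsupport (fun w => (φ w : ℂ)) ⊆ tsupport φ :=
      closure_mono fun w hw h0 => hw (by simp [h0])
    have sub2 : tsupport (fun w j => if j = i then (φ w : ℂ) else 0) ⊆ tsupport φ :=
      closure_mono fun w hw h0 => hw (by funext j; simp [h0])
    have ht : Tst U fun w j => if j = i then (φ w : ℂ) else 0 := by
      refine ⟨fun j => ?_, hc.of_isClosed_subset (isClosed_tsupport _) sub2, sub2.trans hs⟩
      by_cases hj : j = i
      · simpa only [hj, if_true] using sφ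
      · simpa only [hj, if_false] using contDiff_const
    have e := u3 _ ht
    have e1 : ∀ z, u z ⬝ᵥ vd2 (fun w j => if j = i then (φ w : ℂ) else 0) z =
        u z i * d2 (fun w => (φ w : ℂ)) z := fun z => by
      rw [dotProduct, Finset.sum_eq_single i]
      · simp only [vd2, if_true]
      · intro j _ hj
        simp only [vd2, hj, if_false, d2_const, mul_zero]
      · simp
    have e2 : ∀ z, (d2 (fun w => (χ w : ℂ)) z • v z) ⬝ᵥ
        (fun j => if j = i then (φ z : ℂ) else 0) =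
        d2 (fun w => (χ w : ℂ)) z * v z i * φ z := fun z => by
      simp [dotProduct]
    simp only [e1, e2] at e
    simp only [hor_d2 hφ]
    exact hor_weak hU sχ (hvi i) (u1 i) sφ
      (hc.of_isClosed_subset (isClosed_tsupport _) sub1) (sub1.trans hs) e
  choose k k1 k2 using key
  refine ⟨fun z i => k i z, a, differentiableOn_pi.2 k1, a1, ?_, u2⟩
  filter_upwards [a2, ae_restrict_mem hU.measurableSet, ae_restrict_of_ae (ae_all_iff.2 k2)]
    with z hd hzU hz
  have e : (χ z : ℂ) • v z - (fun i => k i z) = u z := by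
    funext i
    rw [Pi.sub_apply, Pi.smul_apply, smul_eq_mul, ← hz i hzU]
    ring
  rw [e]
  exact hd

end Vale.Agent.P253
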