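import Vale.Agent.P253H.CoreP
import Vale.Agent.P253H.GK
import Vale.Agent.P253H.LowH
import Vale.Agent.P253H.DL
import Vale.Agent.P253H.FinH
import Vale.Agent.P253H.Lift
import Vale.Agent.P253H.Har
import Vale.Agent.P253H.Fill
import Vale.Agent.P253.Ray
import Vale.Agent.P253.Area
import Vale.Agent.P253.Red

/-! The set where a holomorphic map lifts is pseudoconvex. -/

namespace Vale.Agent.P253

open Complex Matrix Metric Set Filter Topology MeasureTheory
open scoped ContDiff ComplexConjugate ComplexOrder ENNReal Manifold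

variable {n m N : ℕ} {X : Type} [TopologicalSpace X] [ChartedSpace (E n) X]
  [IsManifold 𝓘(ℂ, E n) ω X] {G : X → E n → M n} {h : X → E N}

lemma main_add (A B : M m) (v : Fin m → ℂ) : nsq (A + B) v = nsq A v + nsq B v := by
  simp only [nsq, Matrix.add_apply, add_mul, Finset.sum_add_distrib, add_re]

theorem pc_lift [Nonempty X] (hS : Std G h) (hi : Function.Injective h) (hc : MComplete G)
    {Φ : E m → E N} {W : Set (E m)}
    (hW : IsOpen W) (cW : Convex ℝ W) (hΦ : DifferentiableOn ℂ Φ W) :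
    Pseudoconvex (LL n h Φ W) := by
  obtain ⟨ψ, hψ, he⟩ := glue (n := n) hi Φ W
  by_contra hn
  obtain ⟨f, b, hT⟩ := red hψ.op hn
  have sub : LL n h Φ W ⊆ W := fun z ⟨_, _, _, hz, hV, _⟩ => hV hz
  obtain ⟨F, hFd⟩ : ∃ F : ℂ → E m, F = fun z => f z + b z := ⟨_, rfl⟩
  have hF : Differentiable ℂ F := hFd ▸ hT.df.add hT.db
  have hin : ∀ z ∈ pd 1, F z ∈ LL n h Φ W := fun z hz => by
    simpa [hFd] using hT.ins 1 ⟨zero_le_one, le_rfl⟩ z (by linarith [(mem_pd.1 hz).1])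
      (Or.inr (mem_pd.1 hz).2)
  have h0 : F 0 ∈ W := hFd ▸ touch_conv hT hW cW sub
  have hb : ∀ z ∈ ball (0 : ℂ) 1, F z ∈ W := fun z hz => by
    rcases eq_or_ne z 0 with rfl | k
    · exact h0
    · exact sub (hin z (mem_pd.2 ⟨mem_ball_zero_iff.1 hz, k⟩))
  obtain ⟨s1, s2⟩ := kk_neg hS hψ hF (pd_open 1) hin
  obtain ⟨c, c0, hl⟩ := lowH hS hψ hT
  obtain ⟨g1, g2⟩ := gg_kahler hS.kae hψ
  have hi := area hψ.op g1 hT
  have e : ∀ z, NN (fun z => GG G ψ z + 1) f b 1 z =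
      nsq (GG G ψ (F z) + 1) fun i => deriv F z i :=
    fun z => by simp [NN, hFd, deriv_fun_add (hT.df z) (hT.db z)]
  simp only [e] at hi
  have hv : Differentiable ℂ fun z i => deriv F z i :=
    differentiable_pi.2 fun i => (EuclideanSpace.proj (𝕜 := ℂ) i).differentiable.comp hF.deriv
  have k1 : Sm (pd 1) fun z => GG G ψ (F z) + 1 := ⟨fun i j => (g1.smooth i j).comp
    (hF.contDiff.restrict_scalars ℝ).contDiffOn hin, fun z hz => g1.pos _ (hin z hz)⟩
  have k2 : Sm (pd 1) fun _ => (1 : M m) := ⟨fun _ _ => contDiffOn_const, fun _ _ => PosDef.one⟩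
  have lc : ContinuousOn (fun z => nsq (GG G ψ (F z)) fun i => deriv F z i) (pd 1) :=
    ((core_cont k1 hv.continuous.continuousOn).sub
      (core_cont k2 hv.continuous.continuousOn)).congr fun z _ => by
        simp only [Pi.sub_apply, main_add, add_sub_cancel_right]
  have l0 : ∀ z, 0 ≤ nsq (GG G ψ (F z)) fun i => deriv F z i := fun z => by
    rw [nsq_eq]
    exact ((g2 _).dotProduct_mulVec_nonneg _).1
  have hd : DifferentiableOn ℂ (Φ ∘ F) (ball 0 1) := hΦ.comp hF.differentiableOn hb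
  have ev : ∀ z ∈ pd 1, (fun j => deriv (Φ ∘ F) z j) =
      fun j => fderiv ℂ (h ∘ ψ) (F z) (deriv F z) j := fun z hz => by
    have e1 : h ∘ ψ =ᶠ[𝓝 (F z)] Φ := mem_of_superset (hψ.op.mem_nhds (hin z hz)) he
    rw [e1.fderiv_eq, ((hΦ.differentiableAt (hW.mem_nhds (sub (hin z hz)))).hasFDerivAt
      |>.comp_hasDerivAt z (hF z).hasDerivAt).deriv]
  obtain ⟨δ, ρ, d0, r0, r1, a, -, j1, j2⟩ := coreP s1 s2 c0 (by simpa only [hFd] using hl)
    (v := fun z j => deriv (Φ ∘ F) z j) (differentiableOn_pi.2 fun i =>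
      (EuclideanSpace.proj (𝕜 := ℂ) i).differentiable.comp_differentiableOn (hd.deriv isOpen_ball))
    lc (fun z hz => ev z hz ▸ (dom_iff hS hψ (hin z hz) _ _).2 le_rfl)
    (lt_of_le_of_lt (lintegral_mono fun z => ENNReal.ofReal_le_ofReal (by
      rw [main_add]
      exact le_add_of_nonneg_right (nsq_nonneg PosDef.one _))) hi)
  have sb : pd ρ ⊆ pd 1 := fun z k => mem_pd.2 ⟨(mem_pd.1 k).1.trans_le r1, (mem_pd.1 k).2⟩
  obtain ⟨u, u1, u2⟩ := ray r0 d0 (lc.mono sb) (fun z _ => l0 z) (lt_of_le_of_lt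
    (lintegral_mono_ae (by
      filter_upwards [j1, ae_restrict_mem (pd_open ρ).measurableSet] with z k1 k2
      rw [ev z (sb k2)] at k1
      exact ENNReal.ofReal_le_ofReal (mul_le_mul_of_nonneg_right
        ((dom_iff hS hψ (hin z (sb k2)) _ _).1 k1) (by positivity)))) j2)
  have hs : ∀ s ∈ Ioo (0 : ℝ) ρ, F (s * u) ∈ LL n h Φ W := fun s hs =>
    hin _ (sb (mem_pd.2 ⟨by
      rw [norm_mul, u1, mul_one, Complex.norm_real, Real.norm_of_nonneg hs.1.le]
      exact hs.2, mul_ne_zero (Complex.ofReal_ne_zero.2 hs.1.ne') (norm_pos_iff.1 (u1 ▸ one_pos))⟩))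
  obtain ⟨p, hp⟩ := finH hc hψ hF r0 u1 hs u2
  have t1 : Tendsto (fun k : ℕ => ρ / (k + 2 : ℝ)) atTop (𝓝 0) :=
    tendsto_const_nhds.div_atTop (tendsto_natCast_atTop_atTop.atTop_add tendsto_const_nhds)
  have t2 : Tendsto (fun k : ℕ => F ((ρ / (k + 2) : ℝ) * u)) atTop (𝓝 (F 0)) := by
    refine (hF.continuous.tendsto 0).comp ?_
    simpa using ((continuous_ofReal.tendsto 0).comp t1).mul_const u
  refine hT.out ?_
  have := lift_lim hS hW hΦ hψ he (fun k => hs _ ⟨by positivity,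
    div_lt_self r0 (by linarith [(Nat.cast_nonneg k : (0 : ℝ) ≤ k)])⟩) h0 t2 hp
  simpa only [hFd] using this

theorem hartogs_ext (hS : Std G h) (hi : Function.Injective h) (hc : MComplete G) :
    HartogsExt n X := by
  intro r r0 r1 φ hφ
  have : Nonempty X := ⟨φ 0⟩
  obtain ⟨b1, b2, b3⟩ := bidisc_open
  have hφ' : HolOn n φ (hartogsFig r) := ⟨b3 r, hφ⟩
  obtain ⟨Φ, h1, h2⟩ := hartogs r0 r1 (Φ := h ∘ φ) fun z hz =>
    (hφ'.comp_diff hS.hol hz).differentiableWithinAt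
  obtain ⟨ψ, hψ, he⟩ := glue (n := n) hi Φ bidisc
  have h3 : hartogsFig r ⊆ LL n h Φ bidisc := fun z hz =>
    ⟨φ, _, hφ', hz, fun w hw => ⟨hw.1, hw.2.1⟩, fun w hw => (h2 hw).symm⟩
  exact ⟨ψ, hψ.hol.mono (pc_fill hψ.op (pc_lift hS hi hc b1 b2 h1) r0 h3),
    fun z hz => hi ((he z (h3 hz)).trans (h2 hz))⟩

end Vale.Agent.P253
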