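import Vale.Agent.P253H.Defs
import Vale.Agent.P253.Wt
import Vale.Agent.P253.Apr

/-!
Semidefinite versions of `neg_wt` (file P253/Wt) and `apriori` (file P253/Apr): copy these proofs, or
reuse their auxiliary lemmas. For `aprioriP` one can also apply `apriori` to `K + ε • 1`.
-/

namespace Vale.Agent.P253

open Complex Matrix Metric Set Filter Topology MeasureTheory
open scoped ContDiff ComplexConjugate ComplexOrder ENNReal Manifold

variable {n m N : ℕ}

theorem neg_wtP {U : Set ℂ} (hU : IsOpen U) {K : ℂ → M n} (h : SmP U K) (hn : Neg U K fun _ => 0)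
    {φ : ℂ → ℝ} (hφ : ContDiffOn ℝ ∞ φ U) :
    SmP U (fun z => (Real.exp (φ z) : ℂ) • K z) ∧
      Neg U (fun z => (Real.exp (φ z) : ℂ) • K z) fun z => (d1 (d2 fun w => (φ w : ℂ)) z).re := by
  set ψ : ℂ → ℂ := fun w => (φ w : ℂ) with hψ
  have h1 : ContDiffOn ℝ ∞ ψ U := ofRealCLM.contDiff.comp_contDiffOn hφ
  have e0 : ∀ i j, (fun w => ((Real.exp (φ w) : ℂ) • K w) i j) = fun w => cexp (ψ w) * K w i j :=
    fun i j => funext fun w => by simp [hψ]
  refine ⟨⟨fun i j => ?_, fun z hz => (h.pos z hz).smul ?_⟩, fun z hz t s => ?_⟩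
  · rw [e0]
    exact h1.cexp.mul (h.smooth i j)
  · exact_mod_cast (Real.exp_pos (φ z)).le
  have hq : d2 ψ z = conj (d1 ψ z) := by
    rw [← d2_conj]
    simp [hψ]
  have a := fun i j => wt_one (diffAt hU h1 hz) (diffAt hU (h.smooth i j) hz)
  have e1 : m1 (fun w => (Real.exp (φ w) : ℂ) • K w) z = cexp (ψ z) • (m1 K z + d1 ψ z • K z) := by
    ext i j
    rw [m1, Matrix.of_apply, e0, (a i j).1]
    rfl
  have e2 : m2 (fun w => (Real.exp (φ w) : ℂ) • K w) z = cexp (ψ z) • (m2 K z + d2 ψ z • K z) := by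
    ext i j
    rw [m2, Matrix.of_apply, e0, (a i j).2]
    rfl
  have e3 : m1 (m2 fun w => (Real.exp (φ w) : ℂ) • K w) z = cexp (ψ z) • (m1 (m2 K) z +
      d1 ψ z • m2 K z + d2 ψ z • m1 K z + (d1 (d2 ψ) z + d1 ψ z * d2 ψ z) • K z) := by
    ext i j
    have e : (fun w => m2 (fun w => (Real.exp (φ w) : ℂ) • K w) w i j) =
        d2 fun w => cexp (ψ w) * K w i j := funext fun w => by rw [m2, Matrix.of_apply, e0]
    rw [m1, Matrix.of_apply, e, wt_two hU h1 (h.smooth i j) hz]
    rfl
  have e4 : cexp (ψ z) = (Real.exp (φ z) : ℂ) := (ofReal_exp _).symm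
  have e5 : blk (fun w => (Real.exp (φ w) : ℂ) • K w) z t s = Real.exp (φ z) *
      (blk K z t (s + d1 ψ z • t) + (d1 (d2 ψ) z * hf (K z) t t).re) := by
    rw [blk, blk, ← add_re, ← re_ofReal_mul, e1, e2, e3, e4, hq]
    congr 1
    simp only [hf, smul_mulVec, add_mulVec, mulVec_add, mulVec_smul, dotProduct_add,
      dotProduct_smul, add_dotProduct, smul_dotProduct, star_add, star_smul, smul_eq_mul,
      RCLike.star_def]
    ring
  have e6 : (hf ((Real.exp (φ z) : ℂ) • K z) t t).re = Real.exp (φ z) * (hf (K z) t t).re := by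
    rw [← re_ofReal_mul]
    simp only [hf, smul_mulVec, dotProduct_smul, smul_eq_mul]
  have e7 : (hf (K z) t t).im = 0 :=
    ((h.pos z hz).dotProduct_mulVec_nonneg t).2.symm
  have h2 := hn z hz t (s + d1 ψ z • t)
  rw [zero_mul] at h2
  rw [e5, e6, mul_re, e7, mul_zero, sub_zero]
  nlinarith [mul_nonneg (Real.exp_pos (φ z)).le h2]

theorem hwtp_cont {U : Set ℂ} {K : ℂ → M n} (h : SmP U K) {x : ℂ → Fin n → ℂ}
    (hx : ∀ i, ContDiffOn ℝ ∞ (fun z => x z i) U) :
    ContinuousOn (fun z => (hf (K z) (x z) (x z)).re) U := by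
  refine continuous_re.comp_continuousOn ?_
  simp only [apr_hf]
  exact continuousOn_finsetSum _ fun i _ => continuousOn_finsetSum _ fun j _ =>
    (((apr_conj (hx i)).mul (h.smooth i j)).mul (hx j)).continuousOn

theorem aprioriP {U : Set ℂ} (hU : IsOpen U) {K : ℂ → M n} (h : SmP U K) {l : ℂ → ℝ}
    (hn : Neg U K l) (hl : ContinuousOn l U) {t : ℂ → Fin n → ℂ} (ht : Tst U t) :
    ∫ z in U, l z * (hf (K z) (t z) (t z)).re ≤
      ∫ z in U, (hf (K z) (vd2 t z) (vd2 t z)).re := by
  have hC : IsCompact (tsupport t) := ht.cpt.isCompact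
  have t0 : ∀ i, ∀ z ∉ tsupport t, t z i = 0 := fun i z hz => by
    rw [image_eq_zero_of_notMem_tsupport hz, Pi.zero_apply]
  have ts : ∀ i, ContDiffOn ℝ ∞ (fun z => t z i) U := fun i => (ht.smooth i).contDiffOn
  have hP := fun i j => (apr_zero hU hC ht.sub ((apr_conj (ts i)).mul
    (((d1_smooth hU (h.smooth i j)).mul (ts j)).add ((h.smooth i j).mul (d1_smooth hU (ts j)))))
    fun z hz => by rw [t0 i z hz, map_zero, zero_mul]).2
  have hQ := fun i j => (apr_zero hU hC ht.sub ((apr_conj (ts i)).mul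
    ((h.smooth i j).mul (d2_smooth hU (ts j))))
    fun z hz => by rw [t0 i z hz, map_zero, zero_mul]).1
  set R : ℂ → ℂ := fun z => ∑ i, ∑ j,
    (d2 (fun w => conj (t w i) * (d1 (fun w => K w i j) w * t w j +
      K w i j * d1 (fun w => t w j) w)) z -
    d1 (fun w => conj (t w i) * (K w i j * d2 (fun w => t w j) w)) z) with hR
  have i1 := fun i j => (hP i j).1.sub (hQ i j).1
  have i2 := fun i => integrable_finsetSum Finset.univ fun j _ => i1 i j
  have iR : IntegrableOn R U := integrable_finsetSum Finset.univ fun i _ => i2 i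
  have zR : ∫ z in U, R z = 0 := by
    refine (integral_finsetSum Finset.univ fun i _ => i2 i).trans
      (Finset.sum_eq_zero fun i _ => ?_)
    refine (integral_finsetSum Finset.univ fun j _ => i1 i j).trans
      (Finset.sum_eq_zero fun j _ => ?_)
    refine (integral_sub (hP i j).1 (hQ i j).1).trans ?_
    rw [(hP i j).2, (hQ i j).2, sub_zero]
  have eR : ∀ z ∈ U, blk K z (t z) (vd1 t z) =
      (R z).re + (hf (K z) (vd2 t z) (vd2 t z)).re := fun z hz => by
    rw [blk, ← add_re]
    congr 1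
    simp only [hR, apr_hf, ← Finset.sum_add_distrib]
    refine Finset.sum_congr rfl fun i _ => Finset.sum_congr rfl fun j _ => ?_
    rw [apr_entry hU (ts i) (ts j) (h.smooth i j) hz]
    exact (sub_add_cancel _ _).symm
  have iL : IntegrableOn (fun z => l z * (hf (K z) (t z) (t z)).re) U :=
    apr_int hU hC ht.sub (hl.mul (hwtp_cont h ts)) fun z hz => by
      simp only [apr_hf, t0 _ z hz, mul_zero, Finset.sum_const_zero, zero_re]
  have iV : IntegrableOn (fun z => (hf (K z) (vd2 t z) (vd2 t z)).re) U :=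
    apr_int hU hC ht.sub (hwtp_cont h fun i => d2_smooth hU (ts i)) fun z hz => by
      have : ∀ i, vd2 t z i = 0 := fun i =>
        (d2_congr (apr_ev hC (t0 i) hz)).trans (d2_const 0)
      simp only [apr_hf, this, mul_zero, Finset.sum_const_zero, zero_re]
  have iR' : IntegrableOn (fun z => (R z).re) U := iR.re
  have zR' : ∫ z in U, (R z).re = 0 := by
    have := integral_re iR
    rw [zR, map_zero] at this
    exact this
  calc _ ≤ ∫ z in U, ((R z).re + (hf (K z) (vd2 t z) (vd2 t z)).re) :=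
        setIntegral_mono_on iL (iR'.add iV) hU.measurableSet fun z hz =>
          (hn z hz _ (vd1 t z)).trans_eq (eR z hz)
    _ = _ := by rw [integral_add iR' iV, zR', zero_add]

end Vale.Agent.P253
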